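import Vale.Agent.P078.Local.Period.Floor
import Vale.Agent.P078.Local.Graph.Basic
import Vale.Agent.P078.Local.Flip.Super

/-!
# Sums over balls against the weight `2 ^ dist(o) / 2 ^ Lg`

The growth of the chance that a site is lost is bounded by linear operators made of sums over balls;
the weight is an eigenfunction from above of each of them.
-/

noncomputable section

namespace Vale.Agent.P078.Local.Chain

open Finset

variable {ι : Type*} [Fintype ι] [DecidableEq ι] {p : Par} (N : Net ι p.D)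

variable (p) in
/-- The growth in one step of the distance. -/
def base : ℝ := 2 * ((p.D : ℝ) + 2)

/-- The sum over a ball. -/
def bs (k : ℕ) (f : ι → ℝ) (z : ι) : ℝ := ∑ x ∈ N.ball z k, f x

/-- The effect of one period of level 1. -/
def T1 (f : ι → ℝ) (z : ι) : ℝ :=
  bs N (10 * p.R 1) f z
    + Real.sqrt (p.pE 1) * bs N (10 * p.R 1) (bs N (11 * p.R 1 + p.f1) f) z

/-- The effect of one period of level 2. -/
def T2 (f : ι → ℝ) (z : ι) : ℝ :=
  bs N (10 * p.R 2) f z
    + Real.sqrt (p.pE 2) * bs N (10 * p.R 2) (bs N (11 * p.R 2) ((T1 N)^[p.K2] f)) z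

/-- The weight: `2` to the distance from `o`, scaled to `1` outside the initial ball. -/
def wt (o z : ι) : ℝ := 2 ^ N.lev {o} p.Lg z / 2 ^ p.Lg

theorem one_le_base : 1 ≤ base p := by
  unfold base
  have : (0 : ℝ) ≤ p.D := Nat.cast_nonneg _
  linarith

theorem base_pow_pos (k : ℕ) : 0 < base p ^ k := pow_pos (lt_of_lt_of_le one_pos one_le_base) k

variable {N}

theorem bs_mono {f g : ι → ℝ} (h : ∀ x, f x ≤ g x) (k : ℕ) (z : ι) : bs N k f z ≤ bs N k g z :=
  sum_le_sum fun x _ => h x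

theorem bs_nonneg {f : ι → ℝ} (h : ∀ x, 0 ≤ f x) (k : ℕ) (z : ι) : 0 ≤ bs N k f z :=
  sum_nonneg fun x _ => h x

theorem T1_mono {f g : ι → ℝ} (h : ∀ x, f x ≤ g x) (z : ι) : T1 N f z ≤ T1 N g z :=
  add_le_add (bs_mono h _ z)
    (mul_le_mul_of_nonneg_left (bs_mono (bs_mono h _) _ z) (Real.sqrt_nonneg _))

theorem iterate_mono {f g : ι → ℝ} (h : ∀ x, f x ≤ g x) :
    ∀ (j : ℕ) (z : ι), (T1 N)^[j] f z ≤ (T1 N)^[j] g z
  | 0, z => h z
  | j + 1, z => by
    rw [Function.iterate_succ_apply', Function.iterate_succ_apply']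
    exact T1_mono (iterate_mono h j) z

/-- The operators commute with averages. -/
theorem avg_bs {α : Type*} [Fintype α] (f : α → ι → ℝ) (k : ℕ) (z : ι) :
    avg (fun a => bs N k (f a) z) = bs N k (fun x => avg fun a => f a x) z := by
  simp only [bs, avg_sum]

theorem avg_iterate {α : Type*} [Fintype α] (f : α → ι → ℝ) :
    ∀ (j : ℕ) (z : ι), avg (fun a => (T1 N)^[j] (f a) z) = (T1 N)^[j] (fun x => avg fun a => f a x) z
  | 0, _ => rfl
  | j + 1, z => by
    simp only [Function.iterate_succ_apply', T1, avg_add, avg_const_mul, avg_bs,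
      avg_iterate f j]

theorem lev_le_of_mem_ball {A : Finset ι} {w k : ℕ} {z x : ι} (h : x ∈ N.ball z k) :
    N.lev A w x ≤ N.lev A w z + k := by
  induction k generalizing x with
  | zero =>
    simp only [Net.ball, Net.nbhd_zero, mem_singleton] at h
    simp [h]
  | succ k ih =>
    simp only [Net.ball, Net.nbhd_succ, mem_union, mem_biUnion] at h
    rcases h with h | ⟨v, hv, hx⟩
    · exact (ih h).trans (by omega)
    · exact (N.lev_le_succ hx).trans (by have := ih hv; omega)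

variable (N)

theorem wt_nonneg (o z : ι) : 0 ≤ wt N o z := by unfold wt; positivity

theorem wt_self (hLg : 0 < p.Lg) (o : ι) : wt N o o = 1 / 2 ^ p.Lg := by
  rw [wt, (N.lev_eq_zero_iff hLg).2 (mem_singleton_self o), pow_zero]

theorem one_le_wt {o z : ι} (h : z ∉ N.ball o p.Lg) : 1 ≤ wt N o z := by
  rw [wt, (N.lev_eq_iff).2 fun j hj hz => h (N.nbhd_mono hj.le hz)]
  exact le_of_eq (div_self (by positivity)).symm

/-- The weight grows by at most `base` in one step. -/
theorem bs_wt {f : ι → ℝ} {c : ℝ} {o : ι} (hc : 0 ≤ c) (h : ∀ x, f x ≤ c * wt N o x) (k : ℕ)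
    (z : ι) : bs N k f z ≤ c * base p ^ k * wt N o z := by
  calc bs N k f z ≤ ∑ _x ∈ N.ball z k, c * (2 ^ k * wt N o z) := by
        refine sum_le_sum fun x hx => (h x).trans (mul_le_mul_of_nonneg_left ?_ hc)
        rw [wt, wt, mul_div_assoc']
        refine div_le_div_of_nonneg_right ?_ (by positivity)
        rw [← pow_add]
        exact pow_le_pow_right₀ one_le_two (by have := lev_le_of_mem_ball (A := {o}) (w := p.Lg) hx; omega)
    _ = (N.ball z k).card * (c * (2 ^ k * wt N o z)) := by rw [sum_const, nsmul_eq_mul]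
    _ ≤ ((p.D : ℝ) + 2) ^ k * (c * (2 ^ k * wt N o z)) := by
        refine mul_le_mul_of_nonneg_right (N.card_ball_le_vol z k) ?_
        have := wt_nonneg N o z
        positivity
    _ = c * base p ^ k * wt N o z := by rw [base, mul_pow]; ring

variable (p) in
/-- The growth in a period of level 1. -/
def g1 : ℝ :=
  base p ^ (10 * p.R 1) + Real.sqrt (p.pE 1) * (base p ^ (11 * p.R 1 + p.f1) * base p ^ (10 * p.R 1))

variable (p) in
/-- The growth in a period of level 2. -/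
def g2 : ℝ :=
  base p ^ (10 * p.R 2)
    + Real.sqrt (p.pE 2) * (g1 p ^ p.K2 * base p ^ (11 * p.R 2) * base p ^ (10 * p.R 2))

theorem g1_nonneg : 0 ≤ g1 p := by
  have := base_pow_pos (p := p) (10 * p.R 1)
  have := base_pow_pos (p := p) (11 * p.R 1 + p.f1)
  unfold g1
  positivity

theorem T1_wt {f : ι → ℝ} {c : ℝ} {o : ι} (hc : 0 ≤ c) (h : ∀ x, f x ≤ c * wt N o x) (z : ι) :
    T1 N f z ≤ c * g1 p * wt N o z := by
  have h1 := bs_wt N hc h (10 * p.R 1) z
  have h2 := bs_wt N (mul_nonneg hc (base_pow_pos _).le) (bs_wt N hc h (11 * p.R 1 + p.f1))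
    (10 * p.R 1) z
  refine (add_le_add h1 (mul_le_mul_of_nonneg_left h2 (Real.sqrt_nonneg _))).trans (le_of_eq ?_)
  simp only [g1]
  ring

theorem iterate_wt {f : ι → ℝ} {c : ℝ} {o : ι} (hc : 0 ≤ c) (h : ∀ x, f x ≤ c * wt N o x) :
    ∀ (j : ℕ) (z : ι), (T1 N)^[j] f z ≤ c * g1 p ^ j * wt N o z
  | 0, z => by simpa using h z
  | j + 1, z => by
    rw [Function.iterate_succ_apply', pow_succ, ← mul_assoc]
    exact T1_wt N (mul_nonneg hc (pow_nonneg g1_nonneg j)) (iterate_wt hc h j) z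

theorem T2_wt {f : ι → ℝ} {c : ℝ} {o : ι} (hc : 0 ≤ c) (h : ∀ x, f x ≤ c * wt N o x) (z : ι) :
    T2 N f z ≤ c * g2 p * wt N o z := by
  have h1 := bs_wt N hc h (10 * p.R 2) z
  have hc' : 0 ≤ c * g1 p ^ p.K2 := mul_nonneg hc (pow_nonneg g1_nonneg _)
  have h2 := bs_wt N (mul_nonneg hc' (base_pow_pos _).le)
    (bs_wt N hc' (iterate_wt N hc h p.K2) (11 * p.R 2)) (10 * p.R 2) z
  refine (add_le_add h1 (mul_le_mul_of_nonneg_left h2 (Real.sqrt_nonneg _))).trans (le_of_eq ?_)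
  simp only [g2]
  ring

section numbers

variable (hp : p.Ok)
include hp

omit hp in
theorem one_add_pow_le {u : ℝ} (hu : 0 ≤ u) {j : ℕ} {b : ℝ} (hb : (j : ℝ) * u ≤ b) :
    (1 + u) ^ j ≤ Real.exp b := by
  calc (1 + u) ^ j ≤ Real.exp u ^ j :=
        pow_le_pow_left₀ (by linarith) (by linarith [Real.add_one_le_exp u]) j
    _ = Real.exp (j * u) := (Real.exp_nat_mul u j).symm
    _ ≤ Real.exp b := Real.exp_le_exp.2 hb

omit hp in
theorem unit_nonneg (p : Par) : 0 ≤ 1 / (2 * (p.Nph : ℝ)) := by positivity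

theorem g1_le : g1 p ≤ base p ^ (10 * p.R 1) * (1 + 1 / (2 * (p.Nph : ℝ))) := by
  have hN : (0 : ℝ) < p.Nph := Nat.cast_pos.2 (Par.Nph_pos hp)
  have h1 : base p ^ (11 * p.R 1 + p.f1) * base p ^ (10 * p.R 1) ≤ base p ^ p.c1 := by
    rw [← pow_add]
    exact pow_le_pow_right₀ one_le_base (by unfold Par.c1; omega)
  have h2 : Real.sqrt (p.pE 1) * base p ^ p.c1 ≤ 1 / (2 * (p.Nph : ℝ)) := by
    rw [le_div_iff₀ (by positivity)]
    have := hp.reach1
    simp only [base]
    nlinarith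
  have h3 : 1 ≤ base p ^ (10 * p.R 1) := one_le_pow₀ one_le_base
  have h4 := mul_le_mul_of_nonneg_left h1 (Real.sqrt_nonneg (p.pE 1))
  have h5 := mul_le_mul_of_nonneg_right h3 (unit_nonneg p)
  simp only [g1]
  linarith

theorem g1_pow_le {j : ℕ} (hj : j ≤ p.K2) : g1 p ^ j ≤ 2 * base p ^ p.f2 := by
  have hN : (0 : ℝ) < p.Nph := Nat.cast_pos.2 (Par.Nph_pos hp)
  have hK : p.K2 ≤ p.Nph :=
    (Nat.le_mul_of_pos_left _ hp.K1_pos).trans (Nat.le_mul_of_pos_left _ hp.N2_pos)
  have he : (1 + 1 / (2 * (p.Nph : ℝ))) ^ j ≤ 2 := by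
    refine (one_add_pow_le (unit_nonneg p) (b := 1 / 2) ?_).trans ?_
    · rw [mul_one_div, div_le_iff₀ (by positivity)]
      have : (j : ℝ) ≤ p.Nph := by exact_mod_cast hj.trans hK
      linarith
    · nlinarith [Real.exp_pos (1 / 2 : ℝ), Real.exp_one_lt_d9,
        (by rw [← Real.exp_add]; norm_num : Real.exp (1 / 2) * Real.exp (1 / 2) = Real.exp 1)]
  calc g1 p ^ j ≤ (base p ^ (10 * p.R 1) * (1 + 1 / (2 * (p.Nph : ℝ)))) ^ j :=
        pow_le_pow_left₀ g1_nonneg (g1_le hp) j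
    _ = base p ^ (10 * p.R 1 * j) * (1 + 1 / (2 * (p.Nph : ℝ))) ^ j := by rw [mul_pow, ← pow_mul]
    _ ≤ base p ^ p.f2 * 2 := by
        refine mul_le_mul (pow_le_pow_right₀ one_le_base ?_) he
          (pow_nonneg (by linarith [(unit_nonneg p)]) _) (base_pow_pos _).le
        unfold Par.f2
        nlinarith
    _ = 2 * base p ^ p.f2 := mul_comm _ _

theorem g2_pow_le {j : ℕ} (hj : j ≤ p.N2) : g2 p ^ j ≤ 3 * base p ^ (10 * p.R 2 * p.N2) := by
  have hN : (0 : ℝ) < p.Nph := Nat.cast_pos.2 (Par.Nph_pos hp)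
  have hg : g2 p ≤ base p ^ (10 * p.R 2) * (1 + 1 / (p.Nph : ℝ)) := by
    have h1 : base p ^ p.f2 * base p ^ (11 * p.R 2) * base p ^ (10 * p.R 2) ≤ base p ^ p.c2 := by
      rw [← pow_add, ← pow_add]
      exact pow_le_pow_right₀ one_le_base (by unfold Par.c2; omega)
    have h2 : Real.sqrt (p.pE 2) * base p ^ p.c2 ≤ 1 / (2 * (p.Nph : ℝ)) := by
      rw [le_div_iff₀ (by positivity)]
      have := hp.reach2
      simp only [base]
      nlinarith
    have h3 : 1 ≤ base p ^ (10 * p.R 2) := one_le_pow₀ one_le_base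
    have h4 : g1 p ^ p.K2 * base p ^ (11 * p.R 2) * base p ^ (10 * p.R 2)
        ≤ 2 * base p ^ p.c2 := by
      have := mul_le_mul_of_nonneg_right (mul_le_mul_of_nonneg_right (g1_pow_le hp le_rfl)
        (base_pow_pos (p := p) (11 * p.R 2)).le) (base_pow_pos (p := p) (10 * p.R 2)).le
      linarith
    have h5 := mul_le_mul_of_nonneg_left h4 (Real.sqrt_nonneg (p.pE 2))
    have e : 1 / (p.Nph : ℝ) = 2 * (1 / (2 * (p.Nph : ℝ))) := by field_simp
    have h6 := mul_le_mul_of_nonneg_right h3 (unit_nonneg p)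
    rw [e]
    simp only [g2]
    linarith
  have hg0 : 0 ≤ g2 p := by
    have := g1_nonneg (p := p)
    have := base_pow_pos (p := p) (11 * p.R 2)
    have := base_pow_pos (p := p) (10 * p.R 2)
    unfold g2
    positivity
  have hN2 : p.N2 ≤ p.Nph :=
    Nat.le_mul_of_pos_right _ (Nat.mul_pos hp.K1_pos hp.K2_pos)
  calc g2 p ^ j ≤ (base p ^ (10 * p.R 2) * (1 + 1 / (p.Nph : ℝ))) ^ j := pow_le_pow_left₀ hg0 hg j
    _ = base p ^ (10 * p.R 2 * j) * (1 + 1 / (p.Nph : ℝ)) ^ j := by rw [mul_pow, ← pow_mul]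
    _ ≤ base p ^ (10 * p.R 2 * p.N2) * 3 := by
        refine mul_le_mul (pow_le_pow_right₀ one_le_base (Nat.mul_le_mul_left _ hj))
          ((one_add_pow_le (by positivity) (b := 1) ?_).trans Real.exp_one_lt_three.le)
          (by positivity) (base_pow_pos _).le
        rw [mul_one_div, div_le_iff₀ hN, one_mul]
        exact_mod_cast hj.trans hN2
    _ = _ := mul_comm _ _

end numbers

end Vale.Agent.P078.Local.Chain
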