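import Vale.Agent.P078.Local.Chain.Past
import Vale.Agent.P078.Local.Chain.Weight

/-!
# Histories are good with probability `1 - failG` (`StmtDepth`)

Without exits of level 0 near `o`, a site lost by level 1 is near a site lost before the period or
near an exit of level 1 near such a site; likewise one level up. So the probabilities of losing a
site grow by the operators of `Weight.lean`.
-/

noncomputable section

namespace Vale.Agent.P078.Local.Chain

open Finset

variable {ι : Type*} [Fintype ι] [DecidableEq ι] {p : Par} (N : Net ι p.D) (ω : Seeds ι p) (o : ι)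
  (s : Bool)

/-- No exit of level 0 near `o` before phase `k`. -/
def NoEx (k : ℕ) (σ : Coins ι p) : Prop :=
  ∀ j < k, Disjoint (N.ball o p.Lg) (exits N ω o s 0 j σ)

/-- `y` is lost at phase `k`. -/
def Lost (k : ℕ) (y : ι) (σ : Coins ι p) : Prop :=
  NoEx N ω o s k σ ∧ y ∉ sets p N ω σ o s k 0

/-- `y` is lost by the period of level 1 that starts at phase `a`. -/
def Lost1 (a : ℕ) (y : ι) (σ : Coins ι p) : Prop :=
  NoEx N ω o s (a + p.K1) σ ∧ y ∉ out1 N ω σ o s a

/-- `y` is lost after `j` periods of level 1 within the period of level 2 that starts at `a`. -/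
def Mid (a : ℕ) : ℕ → ι → Coins ι p → Prop
  | 0 => Lost N ω o s a
  | j + 1 => Lost1 N ω o s (a + j * p.K1)

variable {N ω o s} {σ σ' : Coins ι p}

theorem past_lost (hp : p.Ok) (k : ℕ) (y : ι) : Past k (Lost N ω o s k y) := by
  intro σ σ' h hl
  refine ⟨fun j hj => ?_, ?_⟩
  · rw [← exits_congr (i := 0) hp h (show j + 1 ≤ k from hj)]
    exact hl.1 j hj
  · rw [← sets_congr hp o s h k le_rfl]
    exact hl.2

theorem sets_subset_ball (hp : p.Ok) (k : ℕ) (i : Fin 3) :
    sets p N ω σ o s k i ⊆ N.ball o p.Lg := by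
  induction k using Nat.strong_induction_on generalizing i with
  | _ k ih =>
    rcases k with _ | k
    · exact subset_rfl
    have hK := hp.K1_pos
    have hL := len_pos hp 2
    by_cases h1 : p.K1 ∣ k + 1
    swap
    · fin_cases i
      · exact (sets_succ_zero k h1).le.trans ((perOut_subset _ _ _ _ _).trans (ih k (by omega) 0))
      · exact (sets_succ_one k h1).le.trans (ih k (by omega) 1)
      · exact (sets_succ_two k fun h2 => h1 (dvd_len2_K1.trans h2)).le.trans (ih k (by omega) 2)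
    by_cases h2 : p.len 2 ∣ k + 1
    · exact (sets_succ_top hp k h2 i).le.trans
        ((perOut_subset _ _ _ _ _).trans (ih (k + 1 - p.len 2) (by omega) 2))
    · have e := sets_succ_mid (N := N) (ω := ω) (σ := σ) (o := o) (s := s) hp k h1 h2
      have ho : out1 N ω σ o s (k + 1 - p.K1) ⊆ N.ball o p.Lg :=
        (perOut_subset _ _ _ _ _).trans (ih (k + 1 - p.K1) (by omega) 1)
      fin_cases i
      · exact e.2.le.trans ho
      · exact e.1.le.trans ho
      · exact (sets_succ_two k h2).le.trans (ih k (by omega) 2)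

theorem exits_subset (i : Fin 3) (a : ℕ) :
    exits N ω o s i a σ ⊆ sets p N ω σ o s a i := fun l hl => by
  have := Exit.mem_watched_of_ex σ _ hl
  simp only [watched, mem_filter] at this
  exact core_subset this.1

/-- A site outside an output: near a site outside the input, or near an exit near the complement of
the output of the level below. -/
theorem notMem_perOut {i : Fin 3} {a : ℕ} {S D : Finset ι} {st : St ι p.r} {y : ι}
    (h : y ∉ perOut p N ω σ i s a S D st) :
    ∃ x ∈ N.ball y (10 * p.R i), x ∉ S ∨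
      (x ∈ perEx p N ω σ i s a S st ∧ ∃ z ∈ N.ball x (11 * p.R i), z ∈ S \ D) := by
  simp only [perOut, mem_sdiff, not_and, not_not] at h
  by_cases hy : y ∈ S
  · obtain ⟨x, hx, hxy⟩ := N.mem_nbhd_iff'.1 (h hy)
    refine ⟨x, hxy, ?_⟩
    rcases mem_union.1 hx with hx | hx
    · exact Or.inl (mem_sdiff.1 hx).2
    · obtain ⟨hex, hnb⟩ := mem_inter.1 hx
      obtain ⟨z, hz, hzx⟩ := N.mem_nbhd_iff'.1 hnb
      exact Or.inr ⟨hex, z, hzx, hz⟩
  · exact ⟨y, N.mem_ball_self _ _, Or.inl hy⟩

theorem sets_one_zero (hp : p.Ok) {a : ℕ} (h : p.K1 ∣ a) :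
    sets p N ω σ o s a 1 = sets p N ω σ o s a 0 := by
  rcases a with _ | k
  · rfl
  by_cases h2 : p.len 2 ∣ k + 1
  · rw [sets_succ_top hp k h2, sets_succ_top hp k h2]
  · have e := sets_succ_mid (N := N) (ω := ω) (σ := σ) (o := o) (s := s) hp k h h2
    rw [e.1, e.2]

theorem sets_two_zero (hp : p.Ok) {a : ℕ} (h : p.len 2 ∣ a) :
    sets p N ω σ o s a 2 = sets p N ω σ o s a 0 := by
  rcases a with _ | k
  · rfl
  rw [sets_succ_top hp k h, sets_succ_top hp k h]

/-- Without exits near `o` level 0 only erodes the boundary. -/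
theorem notMem_out0 (hp : p.Ok) {a : ℕ} (ha : p.K1 ∣ a) :
    ∀ j : ℕ, j < p.K1 → NoEx N ω o s (a + j + 1) σ → ∀ y, y ∉ out0 N ω σ o s (a + j) →
      ∃ x ∈ N.ball y ((j + 1) * (10 * p.R 0)), x ∉ sets p N ω σ o s a 0 := by
  intro j
  induction j with
  | zero =>
    intro _ hno y hy
    obtain ⟨x, hx, h | ⟨hex, -⟩⟩ := notMem_perOut hy
    · exact ⟨x, by simpa using hx, h⟩
    · exact absurd hex (disjoint_left.1 (hno a (by omega))
        (sets_subset_ball hp _ _ (exits_subset 0 a hex)))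
  | succ j ih =>
    intro hj hno y hy
    obtain ⟨x, hx, h | ⟨hex, -⟩⟩ := notMem_perOut hy
    · have hnd : ¬ p.K1 ∣ a + j + 1 := fun hd => by
        have hd' : p.K1 ∣ j + 1 := (Nat.dvd_add_right ha).1 (by rw [← Nat.add_assoc]; exact hd)
        have := Nat.le_of_dvd (by omega) hd'
        omega
      rw [show a + (j + 1) = a + j + 1 from rfl, sets_succ_zero _ hnd] at h
      obtain ⟨z, hz, hzS⟩ := ih (by omega) (fun i hi => hno i (by omega)) x h
      refine ⟨z, ?_, hzS⟩
      rw [Nat.add_mul, Nat.one_mul, Nat.add_comm]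
      exact N.ball_trans hx hz
    · exact absurd hex (disjoint_left.1 (hno (a + (j + 1)) (by omega))
        (sets_subset_ball hp _ _ (exits_subset 0 _ hex)))

theorem lost1_cases (hp : p.Ok) {a : ℕ} (ha : p.K1 ∣ a) {y : ι} (h : Lost1 N ω o s a y σ) :
    ∃ e ∈ N.ball y (10 * p.R 1), Lost N ω o s a e σ ∨
      ∃ x ∈ N.ball e (11 * p.R 1 + p.f1), Lost N ω o s a x σ ∧ e ∈ exits N ω o s 1 a σ := by
  have hno : NoEx N ω o s a σ := fun j hj => h.1 j (by omega)
  obtain ⟨e, he, hS | ⟨hex, z, hz, hzS⟩⟩ := notMem_perOut h.2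
  · exact ⟨e, he, Or.inl ⟨hno, by rwa [sets_one_zero hp ha] at hS⟩⟩
  · have hK := hp.K1_pos
    rw [mem_sdiff, show a + p.K1 - 1 = a + (p.K1 - 1) by omega] at hzS
    obtain ⟨x, hx, hxS⟩ := notMem_out0 hp ha (p.K1 - 1) (by omega)
      (fun j hj => h.1 j (by omega)) z hzS.2
    refine ⟨e, he, Or.inr ⟨x, N.ball_mono ?_ (N.ball_trans hz hx), ⟨hno, hxS⟩, hex⟩⟩
    simp only [Par.f1]
    rw [Nat.sub_add_cancel hK, Nat.mul_add]
    omega

theorem lost2_cases (hp : p.Ok) {a : ℕ} (ha : p.len 2 ∣ a) {y : ι}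
    (h : Lost N ω o s (a + p.len 2) y σ) :
    ∃ e ∈ N.ball y (10 * p.R 2), Lost N ω o s a e σ ∨
      ∃ z ∈ N.ball e (11 * p.R 2), e ∈ exits N ω o s 2 a σ ∧ Mid N ω o s a p.K2 z σ := by
  have hno : NoEx N ω o s a σ := fun j hj => h.1 j (by omega)
  have hpos := len_pos hp 2
  obtain ⟨k, hk⟩ : ∃ k, a + p.len 2 = k + 1 := ⟨a + p.len 2 - 1, by omega⟩
  have hd : p.len 2 ∣ k + 1 := hk ▸ dvd_add ha dvd_rfl
  have hy : y ∉ out2 N ω σ o s a := by
    have := h.2
    rwa [hk, sets_succ_top hp k hd, show k + 1 - p.len 2 = a by omega] at this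
  obtain ⟨e, he, hS | ⟨hex, z, hz, hzS⟩⟩ := notMem_perOut hy
  · exact ⟨e, he, Or.inl ⟨hno, by rwa [sets_two_zero hp ha] at hS⟩⟩
  · refine ⟨e, he, Or.inr ⟨z, hz, hex, ?_⟩⟩
    obtain ⟨q, hq⟩ : ∃ q, p.K2 = q + 1 := ⟨p.K2 - 1, by have := hp.K2_pos; omega⟩
    have hl : p.len 2 = q * p.K1 + p.K1 := by
      show p.K1 * p.K2 = _
      rw [hq]; ring
    rw [hq]
    refine ⟨fun j hj => h.1 j (by omega), ?_⟩
    rw [show a + q * p.K1 = a + p.len 2 - p.K1 by omega]
    exact (mem_sdiff.1 hzS).2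

/-- One period of level 1. -/
theorem sc_lost1_le (hp : p.Ok) (hstart : Iface.StartOK p N o) {a b : ℕ} (hab : a ≤ b)
    (hb : p.K1 ∣ b) (hf : b + p.K1 ≤ p.Nph) (y : ι) (σ : Coins ι p) :
    sc a (Lost1 N ω o s b y) σ ≤ T1 N (fun x => sc a (Lost N ω o s b x) σ) y := by
  refine (sc_mono (fun σ' h => lost1_cases hp hb h) σ).trans ?_
  refine (sc_exists_le _ _ _ σ).trans ?_
  simp only [T1, bs, mul_sum, ← sum_add_distrib]
  refine sum_le_sum fun e _ => (sc_or_le _ _ _ σ).trans (add_le_add le_rfl ?_)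
  refine (sc_exists_le _ _ _ σ).trans (sum_le_sum fun x _ => ?_)
  simp only [sc]
  rw [← Real.sqrt_mul' _ (cond_nonneg _ _ _)]
  refine Real.sqrt_le_sqrt ?_
  rw [mul_comm]
  exact cond_and_le hab (past_lost hp b x) (fun σ' _ => cond_exit_le hp hstart hb hf e σ') σ

theorem lost_imp_mid (hp : p.Ok) {a : ℕ} (ha : p.len 2 ∣ a) {j : ℕ} (hj : j < p.K2) {x : ι}
    (h : Lost N ω o s (a + j * p.K1) x σ) : Mid N ω o s a j x σ := by
  rcases j with _ | j
  · simpa [Mid] using h
  have hK := hp.K1_pos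
  have hlt : (j + 1) * p.K1 < p.len 2 := by
    show _ < p.K1 * p.K2
    rw [Nat.mul_comm]
    exact Nat.mul_lt_mul_of_pos_left hj hK
  have e : a + (j + 1) * p.K1 = a + j * p.K1 + p.K1 := by ring
  obtain ⟨k, hk⟩ : ∃ k, a + (j + 1) * p.K1 = k + 1 := ⟨a + (j + 1) * p.K1 - 1, by omega⟩
  have h1 : p.K1 ∣ k + 1 := hk ▸ dvd_add (dvd_len2_K1.trans ha) (dvd_mul_left _ _)
  have h2 : ¬ p.len 2 ∣ k + 1 := fun h2 => by
    rw [← hk] at h2
    have := Nat.le_of_dvd (by positivity) ((Nat.dvd_add_right ha).1 h2)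
    omega
  refine ⟨fun i hi => h.1 i (by omega), ?_⟩
  have := h.2
  rwa [hk, (sets_succ_mid (N := N) (ω := ω) (σ := σ) (o := o) (s := s) hp k h1 h2).2,
    show k + 1 - p.K1 = a + j * p.K1 by omega] at this

open Classical in
theorem sc_mid_le (hp : p.Ok) (hstart : Iface.StartOK p N o) {a : ℕ} (ha : p.len 2 ∣ a) :
    ∀ j : ℕ, j ≤ p.K2 → a + j * p.K1 ≤ p.Nph → ∀ (y : ι) (σ : Coins ι p),
      sc a (Mid N ω o s a j y) σ
        ≤ (T1 N)^[j] (fun x => if Lost N ω o s a x σ then (1 : ℝ) else 0) y := by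
  intro j
  induction j with
  | zero => intro _ _ y σ; exact (sc_of_past (past_lost hp a y) σ).le
  | succ j ih =>
    intro hj hf y σ
    have e : a + (j + 1) * p.K1 = a + j * p.K1 + p.K1 := by ring
    rw [Function.iterate_succ_apply']
    refine (sc_lost1_le hp hstart (Nat.le_add_right _ _)
      (dvd_add (dvd_len2_K1.trans ha) (dvd_mul_left _ _)) (by omega) y σ).trans ?_
    refine T1_mono (fun x => ?_) y
    exact (sc_mono (fun σ' h => lost_imp_mid hp ha (by omega) h) σ).trans
      (ih (by omega) (by omega) x σ)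

theorem avg_mid_le (hp : p.Ok) (hstart : Iface.StartOK p N o) {a : ℕ} (ha : p.len 2 ∣ a) {j : ℕ}
    (hj : j ≤ p.K2) (hf : a + j * p.K1 ≤ p.Nph) (y : ι) :
    avg (sc a (Mid N ω o s a j y))
      ≤ (T1 N)^[j] (fun x => prob fun σ => Lost N ω o s a x σ) y := by
  classical
  exact (avg_mono (sc_mid_le hp hstart ha j hj hf y)).trans_eq (avg_iterate _ j y)

/-- One period of level 2. -/
theorem prob_lost2_le (hp : p.Ok) (hstart : Iface.StartOK p N o) {a : ℕ} (ha : p.len 2 ∣ a)
    (hf : a + p.len 2 ≤ p.Nph) (y : ι) :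
    prob (Lost N ω o s (a + p.len 2) y) ≤ T2 N (fun x => prob (Lost N ω o s a x)) y := by
  refine (prob_mono fun σ h => lost2_cases hp ha h).trans ((prob_exists_le _ _).trans ?_)
  simp only [T2, bs, mul_sum, ← sum_add_distrib]
  refine sum_le_sum fun e _ => (prob_or_le _ _).trans (add_le_add le_rfl ?_)
  refine (prob_exists_le _ _).trans (sum_le_sum fun z _ => ?_)
  rw [prob_eq_avg_cond a]
  refine (avg_mono fun σ => (cond_and_le_sc a _ _ σ).trans
    (mul_le_mul_of_nonneg_right (Real.sqrt_le_sqrt (cond_exit_le hp hstart ha hf e σ))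
      (Real.sqrt_nonneg _))).trans ?_
  rw [avg_const_mul]
  refine mul_le_mul_of_nonneg_left (avg_mid_le hp hstart ha le_rfl ?_ z) (Real.sqrt_nonneg _)
  rwa [Nat.mul_comm]

theorem prob_lost_period (hp : p.Ok) (hstart : Iface.StartOK p N o) :
    ∀ j : ℕ, j * p.len 2 ≤ p.Nph → ∀ y, prob (Lost N ω o s (j * p.len 2) y) ≤ g2 p ^ j * wt N o y := by
  classical
  intro j
  induction j with
  | zero =>
    intro _ y
    rw [pow_zero, one_mul, Nat.zero_mul]
    by_cases hy : y ∈ N.ball o p.Lg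
    · refine le_trans (le_of_eq ?_) (wt_nonneg N o y)
      simp only [prob, Lost, sets_zero, hy, not_true_eq_false, and_false, if_false]
      exact avg_const 0
    · exact (prob_le_one _).trans (one_le_wt N hy)
  | succ j ih =>
    intro hf y
    rw [Nat.succ_mul] at hf ⊢
    refine (prob_lost2_le hp hstart (dvd_mul_left _ _) hf y).trans ?_
    rw [pow_succ]
    refine T2_wt N (pow_nonneg ?_ _) (ih (by omega)) y
    have := g1_nonneg (p := p)
    have := base_pow_pos (p := p) (11 * p.R 2)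
    have := base_pow_pos (p := p) (10 * p.R 2)
    unfold g2
    positivity

/-- The exponent of the growth up to any phase. -/
def expo (p : Par) : ℕ := p.f1 + p.f2 + 10 * p.R 2 * p.N2

theorem prob_lost_le (hp : p.Ok) (hstart : Iface.StartOK p N o) {k : ℕ} (hk : k ≤ p.Nph) (y : ι) :
    prob (Lost N ω o s k y) ≤ 6 * base p ^ expo p * wt N o y := by
  classical
  have hK := hp.K1_pos
  have hpos := len_pos hp 2
  set q := k / p.len 2
  set j := k % p.len 2 / p.K1
  set i := k % p.K1
  have hj : j < p.K2 := by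
    rw [Nat.div_lt_iff_lt_mul hK, Nat.mul_comm]
    exact Nat.mod_lt _ hpos
  have hk' : k = q * p.len 2 + j * p.K1 + i := by
    have e1 : p.len 2 * q + k % p.len 2 = k := Nat.div_add_mod k (p.len 2)
    have e2 : p.K1 * j + k % p.len 2 % p.K1 = k % p.len 2 := Nat.div_add_mod _ _
    have e3 : k % p.len 2 % p.K1 = i := Nat.mod_mod_of_dvd k dvd_len2_K1
    rw [Nat.mul_comm q, Nat.mul_comm j]
    omega
  set b := q * p.len 2 + j * p.K1
  have hb : p.K1 ∣ b := dvd_add (dvd_len2_K1.trans (dvd_mul_left _ _)) (dvd_mul_left _ _)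
  have hi : i < p.K1 := Nat.mod_lt _ hK
  have hdet : ∀ σ : Coins ι p, Lost N ω o s k y σ →
      ∃ x ∈ N.ball y p.f1, Lost N ω o s b x σ := by
    intro σ h
    have hno : NoEx N ω o s b σ := fun l hl => h.1 l (by omega)
    rcases Nat.eq_zero_or_pos i with h0 | hi0
    · exact ⟨y, N.mem_ball_self _ _, hno, by have := h.2; rwa [show k = b by omega] at this⟩
    · obtain ⟨i', hi'⟩ : ∃ i', i = i' + 1 := ⟨i - 1, by omega⟩
      have hnd : ¬ p.K1 ∣ b + i' + 1 := fun hd => by
        have hd' : p.K1 ∣ i' + 1 := (Nat.dvd_add_right hb).1 (by rw [← Nat.add_assoc]; exact hd)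
        have := Nat.le_of_dvd (by omega) hd'
        omega
      have hy := h.2
      rw [show k = b + i' + 1 by omega, sets_succ_zero _ hnd] at hy
      obtain ⟨x, hx, hxS⟩ := notMem_out0 hp hb i' (by omega) (fun l hl => h.1 l (by omega)) y hy
      refine ⟨x, N.ball_mono ?_ hx, hno, hxS⟩
      exact Nat.mul_le_mul (show i' + 1 ≤ p.K1 by omega) (by omega)
  have hN2 : q ≤ p.N2 := (Nat.div_le_iff_le_mul hpos).2 (by
    have : p.Nph = p.N2 * p.len 2 := rfl
    omega)
  have hq : ∀ x, prob (Lost N ω o s b x) ≤ 6 * base p ^ (p.f2 + 10 * p.R 2 * p.N2) * wt N o x := by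
    intro x
    have h1 : prob (Lost N ω o s b x)
        ≤ (T1 N)^[j] (fun z => prob (Lost N ω o s (q * p.len 2) z)) x := by
      refine le_trans (prob_mono fun σ h => lost_imp_mid hp (dvd_mul_left _ _) hj h) ?_
      rw [prob_eq_avg_cond (q * p.len 2)]
      exact (avg_mono fun σ => cond_le_sc _ _ σ).trans
        (avg_mid_le hp hstart (dvd_mul_left _ _) hj.le (by omega) x)
    refine h1.trans ((iterate_wt N (pow_nonneg ?_ _)
      (prob_lost_period hp hstart q (by omega)) j x).trans ?_)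
    · have := g1_nonneg (p := p)
      have := base_pow_pos (p := p) (11 * p.R 2)
      have := base_pow_pos (p := p) (10 * p.R 2)
      unfold g2
      positivity
    refine mul_le_mul_of_nonneg_right ?_ (wt_nonneg N o x)
    calc g2 p ^ q * g1 p ^ j
        ≤ 3 * base p ^ (10 * p.R 2 * p.N2) * (2 * base p ^ p.f2) :=
          mul_le_mul (g2_pow_le hp hN2) (g1_pow_le hp hj.le) (pow_nonneg g1_nonneg _)
            (by positivity [base_pow_pos (p := p) (10 * p.R 2 * p.N2)])
      _ = 6 * base p ^ (p.f2 + 10 * p.R 2 * p.N2) := by rw [pow_add]; ring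
  refine (prob_mono hdet).trans ((prob_exists_le _ _).trans ?_)
  refine (bs_wt N (mul_nonneg (by norm_num) (base_pow_pos _).le) hq p.f1 y).trans (le_of_eq ?_)
  simp only [expo, pow_add]
  ring

/-- **`StmtDepth`.** -/
theorem depthStmt : Iface.StmtDepth (ι := ι) p := by
  classical
  intro hp N ω o hstart
  set E0 : Coins ι p → Prop := fun σ => ∃ s ∈ (univ : Finset Bool), ∃ a ∈ range p.Nph,
    ∃ e ∈ N.ball o p.Lg, e ∈ exits N ω o s 0 a σ
  set E1 : Coins ι p → Prop := fun σ => ∃ i ∈ (univ : Finset (Fin 3)), ∃ s ∈ (univ : Finset Bool),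
    ∃ a ∈ range p.Nph, ∃ e ∈ N.ball o (30 * p.R i),
      p.len i ∣ a ∧ a + p.len i ≤ p.Nph ∧ e ∈ exits N ω o s i a σ
  set E2 : Coins ι p → Prop := fun σ => ∃ s ∈ (univ : Finset Bool), ∃ k ∈ range (p.Nph + 1),
    ∃ y ∈ N.ball o p.rt, Lost N ω o s k y σ
  have hcases : ∀ σ, ¬ GoodTo p N ω σ o p.Nph → E0 σ ∨ E1 σ ∨ E2 σ := by
    intro σ hg
    by_contra hno
    simp only [not_or, E0, E1, E2, mem_univ, true_and, not_exists, not_and, mem_range] at hno
    obtain ⟨h0, h1, h2⟩ := hno
    refine hg ⟨fun k hk i s y hy => ?_, fun i s a hd hf => disjoint_left.2 fun e he hex => ?_⟩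
    · by_contra hyS
      set a := k - k % p.len i with ha
      have hak : a ≤ k := Nat.sub_le _ _
      refine h2 s a (by omega) y hy
        ⟨fun j hj => disjoint_left.2 fun e he => h0 s j (by omega) e he, ?_⟩
      rw [sets_start i k, ← ha] at hyS
      have hd : p.len i ∣ a := Nat.dvd_sub_mod _
      fin_cases i
      · exact hyS
      · exact fun hm => hyS ((sets_one_zero (N := N) (ω := ω) (σ := σ) (o := o) (s := s) hp hd).ge hm)
      · exact fun hm => hyS ((sets_two_zero (N := N) (ω := ω) (σ := σ) (o := o) (s := s) hp hd).ge hm)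
    · exact h1 i s a (by have := len_pos hp i; omega) e he hd hf hex
  have hN : (0 : ℝ) ≤ p.Nph := Nat.cast_nonneg _
  have hpE : ∀ i, 0 ≤ p.pE i := fun i => by unfold Par.pE; positivity
  have hb0 : prob E0 ≤ 2 * p.Nph * p.vol p.Lg * p.pE 0 := by
    refine (prob_exists_le _ _).trans ((sum_le_card_nsmul _ _ (p.Nph * (p.vol p.Lg * p.pE 0))
      fun s _ => ?_).trans (le_of_eq (by simp; ring)))
    refine (prob_exists_le _ _).trans ((sum_le_card_nsmul _ _ (p.vol p.Lg * p.pE 0)
      fun a ha => ?_).trans (le_of_eq (by simp)))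
    refine (prob_exists_le _ _).trans ((sum_le_card_nsmul _ _ (p.pE 0) fun e _ => ?_).trans ?_)
    · exact prob_exit_le' hp hstart (i := 0) (one_dvd _) (mem_range.1 ha) e
    · rw [nsmul_eq_mul]
      exact mul_le_mul_of_nonneg_right (N.card_ball_le_vol o _) (hpE 0)
  have hb1 : prob E1 ≤ ∑ i, 2 * p.Nph * p.vol (30 * p.R i) * p.pE i := by
    refine (prob_exists_le _ _).trans (sum_le_sum fun i _ => ?_)
    refine (prob_exists_le _ _).trans ((sum_le_card_nsmul _ _ (p.Nph * (p.vol (30 * p.R i) * p.pE i))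
      fun s _ => ?_).trans (le_of_eq (by simp; ring)))
    refine (prob_exists_le _ _).trans ((sum_le_card_nsmul _ _ (p.vol (30 * p.R i) * p.pE i)
      fun a _ => ?_).trans (le_of_eq (by simp)))
    refine (prob_exists_le _ _).trans ((sum_le_card_nsmul _ _ (p.pE i) fun e _ => ?_).trans ?_)
    · by_cases hd : p.len i ∣ a ∧ a + p.len i ≤ p.Nph
      · exact (prob_mono fun σ h => h.2.2).trans (prob_exit_le' hp hstart hd.1 hd.2 e)
      · refine le_trans (le_of_eq ?_) (hpE i)
        simp only [prob]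
        refine Eq.trans ?_ (avg_const (α := Coins ι p) 0)
        congr 1
        funext σ
        exact if_neg fun h => hd ⟨h.1, h.2.1⟩
    · rw [nsmul_eq_mul]
      exact mul_le_mul_of_nonneg_right (N.card_ball_le_vol o _) (hpE i)
  have hb2 : prob E2 ≤ 64 * p.Nph * base p ^ (2 * p.free) / 2 ^ p.Lg := by
    set B := 6 * base p ^ expo p * base p ^ p.rt * (1 / 2 ^ p.Lg)
    have hLg : 0 < p.Lg := by
      have := hp.R_ge 0; have := hp.rt_ge 0; have := hp.rt_le; omega
    refine (prob_exists_le _ _).trans ((sum_le_card_nsmul _ _ ((p.Nph + 1 : ℕ) * B)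
      fun s _ => ?_).trans ?_)
    · refine (prob_exists_le _ _).trans ((sum_le_card_nsmul _ _ B fun k hk => ?_).trans
        (le_of_eq (by simp)))
      refine (prob_exists_le _ _).trans ?_
      have := bs_wt N (mul_nonneg (by norm_num) (base_pow_pos (p := p) (expo p)).le)
        (prob_lost_le (N := N) (ω := ω) (o := o) (s := s) hp hstart
          (Nat.lt_succ_iff.1 (mem_range.1 hk))) p.rt o
      rwa [wt_self N hLg] at this
    · have hexp : expo p + p.rt ≤ 2 * p.free := by
        have e : p.N2 * (10 * p.R 2 + 1) = 10 * p.R 2 * p.N2 + p.N2 := by ring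
        simp only [expo, Par.free, e]
        omega
      have hpow : base p ^ expo p * base p ^ p.rt ≤ base p ^ (2 * p.free) := by
        rw [← pow_add]; exact pow_le_pow_right₀ one_le_base hexp
      have hN1 : (1 : ℝ) ≤ p.Nph := by exact_mod_cast Par.Nph_pos hp
      have hpos := base_pow_pos (p := p) (expo p)
      have hpos' := base_pow_pos (p := p) p.rt
      have hBle : B ≤ 6 * base p ^ (2 * p.free) * (1 / 2 ^ p.Lg) := by
        refine mul_le_mul_of_nonneg_right ?_ (by positivity)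
        linarith
      have hB0 : 0 ≤ B := by positivity
      simp only [card_univ, Fintype.card_bool, nsmul_eq_mul, Nat.cast_ofNat, Nat.cast_add,
        Nat.cast_one]
      rw [mul_div_assoc, mul_assoc 64, div_eq_mul_one_div (base p ^ (2 * p.free))]
      nlinarith
  refine (prob_mono hcases).trans ((prob_or_le _ _).trans ?_)
  refine (add_le_add hb0 ((prob_or_le _ _).trans (add_le_add hb1 hb2))).trans (le_of_eq ?_)
  simp only [Par.failG, base]
  ring

end Vale.Agent.P078.Local.Chain
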