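import Vale.Agent.P078.Local.Chain.Sets
import Vale.Agent.P078.Local.Moves.Congr
import Vale.Agent.P078.Local.Exit.Main
import Vale.Agent.P078.Local.Flip.Product

/-!
# Conditioning on the coins of the phases before `a`
-/

noncomputable section

namespace Vale.Agent.P078.Local.Chain

open Finset

variable {ι : Type*} [Fintype ι] [DecidableEq ι] {p : Par}

/-- The event is decided before phase `a`. -/
def Past (a : ℕ) (E : Coins ι p → Prop) : Prop := ∀ σ σ', AgreeTo σ σ' a → E σ → E σ'

variable (p) in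
/-- The slots from phase `a` on. -/
def fut (a : ℕ) : Finset (Slot ι p) := univ.filter fun sl => a ≤ (sl.1 : ℕ)

/-- The probability given the coins before phase `a`. -/
def cond (a : ℕ) (E : Coins ι p → Prop) (σ : Coins ι p) : ℝ :=
  prob fun τ : Coins ι p => E ((fut p a).piecewise τ σ)

/-- Its square root. -/
def sc (a : ℕ) (E : Coins ι p → Prop) (σ : Coins ι p) : ℝ := Real.sqrt (cond a E σ)

omit [Fintype ι] [DecidableEq ι] in
theorem agreeTo_symm {a : ℕ} {σ σ' : Coins ι p} (h : AgreeTo σ σ' a) : AgreeTo σ' σ a :=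
  fun sl hsl => (h sl hsl).symm

theorem agree_piecewise (a : ℕ) (σ τ : Coins ι p) : AgreeTo ((fut p a).piecewise τ σ) σ a :=
  fun sl hsl => piecewise_eq_of_notMem _ _ _ (by simp [fut]; omega)

open Classical in
theorem prob_eq_avg_cond (a : ℕ) (E : Coins ι p → Prop) : prob E = avg (cond a E) := by
  simp only [prob]
  exact avg_resample (fut p a) fun σ => if E σ then (1 : ℝ) else 0

theorem cond_nonneg (a : ℕ) (E : Coins ι p → Prop) (σ : Coins ι p) : 0 ≤ cond a E σ :=
  prob_nonneg _

theorem cond_le_sc (a : ℕ) (E : Coins ι p → Prop) (σ : Coins ι p) : cond a E σ ≤ sc a E σ :=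
  Real.le_sqrt_of_sq_le (sq_le (cond_nonneg a E σ) (prob_le_one _))
where sq_le {x : ℝ} (h0 : 0 ≤ x) (h1 : x ≤ 1) : x ^ 2 ≤ x := by nlinarith

theorem cond_mono {a : ℕ} {E F : Coins ι p → Prop} (h : ∀ σ, E σ → F σ) (σ : Coins ι p) :
    cond a E σ ≤ cond a F σ :=
  prob_mono fun _ hE => h _ hE

theorem sc_mono {a : ℕ} {E F : Coins ι p → Prop} (h : ∀ σ, E σ → F σ) (σ : Coins ι p) :
    sc a E σ ≤ sc a F σ :=
  Real.sqrt_le_sqrt (cond_mono h σ)

theorem sc_or_le (a : ℕ) (E F : Coins ι p → Prop) (σ : Coins ι p) :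
    sc a (fun σ => E σ ∨ F σ) σ ≤ sc a E σ + sc a F σ := by
  refine Real.sqrt_le_iff.2 ⟨add_nonneg (Real.sqrt_nonneg _) (Real.sqrt_nonneg _), ?_⟩
  have h : cond a (fun σ => E σ ∨ F σ) σ ≤ cond a E σ + cond a F σ := prob_or_le _ _
  simp only [sc]
  nlinarith [Real.sq_sqrt (cond_nonneg a E σ), Real.sq_sqrt (cond_nonneg a F σ),
    Real.sqrt_nonneg (cond a E σ), Real.sqrt_nonneg (cond a F σ)]

theorem sc_exists_le {β : Type*} (a : ℕ) (B : Finset β) (E : β → Coins ι p → Prop)
    (σ : Coins ι p) : sc a (fun σ => ∃ i ∈ B, E i σ) σ ≤ ∑ i ∈ B, sc a (E i) σ := by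
  classical
  induction B using Finset.induction_on with
  | empty =>
    refine le_of_eq ?_
    simp only [sc, cond, prob, Finset.notMem_empty, false_and, exists_false, if_false, sum_empty]
    rw [avg_const, Real.sqrt_zero]
  | @insert i B hi ih =>
    rw [sum_insert hi]
    refine (sc_mono (fun σ' h => ?_) σ).trans
      ((sc_or_le a (E i) (fun σ => ∃ j ∈ B, E j σ) σ).trans (by linarith))
    obtain ⟨j, hj, hE⟩ := h
    rcases mem_insert.1 hj with rfl | hj
    · exact Or.inl hE
    · exact Or.inr ⟨j, hj, hE⟩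

open Classical in
theorem cond_of_past {a : ℕ} {E : Coins ι p → Prop} (hE : Past a E) (σ : Coins ι p) :
    cond a E σ = if E σ then 1 else 0 := by
  have h : ∀ τ : Coins ι p, E ((fut p a).piecewise τ σ) ↔ E σ := fun τ =>
    ⟨hE _ _ (agree_piecewise a σ τ), hE _ _ (agreeTo_symm (agree_piecewise a σ τ))⟩
  simp only [cond, prob, h]
  exact avg_const _

open Classical in
theorem sc_of_past {a : ℕ} {E : Coins ι p → Prop} (hE : Past a E) (σ : Coins ι p) :
    sc a E σ = if E σ then 1 else 0 := by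
  rw [sc, cond_of_past hE]
  split_ifs <;> simp

/-- An event decided before `b` times an event unlikely given the coins before `b`. -/
theorem cond_and_le {a b : ℕ} (hab : a ≤ b) {A E : Coins ι p → Prop} {q : ℝ} (hA : Past b A)
    (hE : ∀ σ, A σ → cond b E σ ≤ q) (σ : Coins ι p) :
    cond a (fun σ => A σ ∧ E σ) σ ≤ cond a A σ * q := by
  have key : ∀ τ τ' : Coins ι p, (fut p a).piecewise ((fut p b).piecewise τ' τ) σ
      = (fut p b).piecewise τ' ((fut p a).piecewise τ σ) := by
    intro τ τ'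
    funext sl
    by_cases hb : sl ∈ fut p b
    · have ha : sl ∈ fut p a := by simp [fut] at hb ⊢; omega
      simp [ha, hb]
    · by_cases ha : sl ∈ fut p a <;> simp [ha, hb]
  refine prob_and_le (fut p b) (A := fun τ => A ((fut p a).piecewise τ σ))
    (E := fun τ => E ((fut p a).piecewise τ σ)) (q := q) (fun τ τ' h => ?_) fun τ h => ?_
  · rw [key] at h
    exact hA _ _ (agree_piecewise b _ τ') h
  · simp only [key]
    exact hE _ h

/-- Cauchy-Schwarz given the coins before `a`. -/
theorem cond_and_le_sc (a : ℕ) (A E : Coins ι p → Prop) (σ : Coins ι p) :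
    cond a (fun σ => A σ ∧ E σ) σ ≤ sc a A σ * sc a E σ :=
  prob_and_le_sqrt _ _

variable {N : Net ι p.D} {ω : Seeds ι p} {σ σ' : Coins ι p} {o : ι} {s : Bool}

variable (N ω o s) in
/-- The exits of the period of level `i` that starts at phase `a`, on its input. -/
def exits (i : Fin 3) (a : ℕ) (σ : Coins ι p) : Finset ι :=
  perEx p N ω σ i s a (sets p N ω σ o s a i) (stateAt p N ω σ a)

theorem exits_congr (hp : p.Ok) {k a : ℕ} {i : Fin 3} (h : AgreeTo σ σ' k) (hk : a + p.len i ≤ k) :
    exits N ω o s i a σ = exits N ω o s i a σ' := by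
  simp only [exits]
  rw [stateAt_congr h (show a ≤ k by omega), sets_congr hp o s h a (by omega), perEx_congr h hk]

/-- An exit has probability at most `pE`, given the coins before the period. -/
theorem cond_exit_le (hp : p.Ok) (hstart : Iface.StartOK p N o) {i : Fin 3} {a : ℕ}
    (hd : p.len i ∣ a) (hf : a + p.len i ≤ p.Nph) (e : ι) (σ : Coins ι p) :
    cond a (fun σ => e ∈ exits N ω o s i a σ) σ ≤ p.pE i := by
  have hv := chainStmt hp N ω σ o s a i hstart (by omega) hd
  refine le_trans (le_of_eq ?_) (Exit.prob_exit_le hp N ω i s a (sets p N ω σ o s a i)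
    (stateAt p N ω σ a) e hd hf (stateAt_isLaw (N := N) ω σ hp a) hv)
  simp only [cond]
  congr 1
  funext τ
  have hA := agree_piecewise a σ τ
  simp only [exits, stateAt_congr hA le_rfl, sets_congr hp o s hA a le_rfl]
  congr 1
  simp only [perEx, axRun]
  rw [foldl_congr_coins (fun q sl b => axStep p N ω i s (sets p N ω σ o s a i)
      (watched p N i s (p.floor i a) (stateAt p N ω σ a).h (sets p N ω σ o s a i)) q sl b) _ _
    fun sl hsl => piecewise_eq_of_mem _ _ _ (by simp [fut, ((mem_seg ω).1 hsl).1])]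

theorem prob_exit_le' (hp : p.Ok) (hstart : Iface.StartOK p N o) {i : Fin 3} {a : ℕ}
    (hd : p.len i ∣ a) (hf : a + p.len i ≤ p.Nph) (e : ι) :
    prob (fun σ => e ∈ exits N ω o s i a σ) ≤ p.pE i := by
  rw [prob_eq_avg_cond a]
  exact (avg_mono (cond_exit_le hp hstart hd hf e)).trans_eq (avg_const _)

end Vale.Agent.P078.Local.Chain
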