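import Vale.Agent.P078.Local.Period.Main
import Vale.Agent.P078.Local.Moves.Floor

/-!
# The chain of sets: floors and validity at every phase (`StmtChain`)
-/

noncomputable section

namespace Vale.Agent.P078.Local.Chain

open Finset

variable {p : Par}

theorem dvd_succ_iff {L k : ℕ} : L ∣ k + 1 ↔ k % L + 1 = L ∨ L = 1 := by
  rw [Nat.dvd_iff_mod_eq_zero]
  constructor
  · intro h
    rcases eq_or_ne L 0 with rfl | hL0
    · simp at h
    rcases eq_or_ne L 1 with rfl | hL1
    · exact Or.inr rfl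
    left
    have hk := Nat.mod_lt k (Nat.pos_of_ne_zero hL0)
    by_contra hne
    rw [Nat.add_mod, Nat.one_mod_eq_one.2 hL1, Nat.mod_eq_of_lt (by omega)] at h
    omega
  · rintro (h | rfl)
    · have := Nat.div_add_mod k L
      exact Nat.mod_eq_zero_of_dvd ⟨k / L + 1, by rw [Nat.mul_add, Nat.mul_one]; omega⟩
    · exact Nat.mod_one _

theorem dvd_len2_K1 : p.K1 ∣ p.len 2 := Dvd.intro p.K2 rfl

theorem floor2 (n : ℕ) : p.floor 2 n = p.t0 + (n / p.len 2 : ℕ) * p.rise 2 := rfl

theorem floor0_of_dvd {n : ℕ} (h : p.K1 ∣ n) : p.floor 0 n = p.floor 1 n := by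
  rw [floor0_eq, Nat.mod_eq_zero_of_dvd h, Nat.cast_zero, zero_mul, add_zero]

theorem floor1_of_dvd {n : ℕ} (h : p.len 2 ∣ n) : p.floor 1 n = p.floor 2 n := by
  rw [floor1_eq, Nat.mod_eq_zero_of_dvd h, Nat.zero_div, Nat.cast_zero, zero_mul, add_zero]

theorem rise1_eq : p.rise 1 = 8 * p.K1 * p.rise 0 := rfl

theorem rise2_eq : p.rise 2 = 8 * p.K2 * p.rise 1 := by
  simp only [Par.rise, Fin.isValue, Matrix.cons_val]
  ring

theorem floor_start {k : ℕ} (hp : p.Ok) (i : Fin 3) :
    p.floor i k = p.floor i (k - k % p.len i) := by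
  have hlen := len_pos hp i
  have h1 := Nat.mod_lt k hlen
  have h2 := Nat.mod_le k (p.len i)
  exact floor_eq_of_period hp (Nat.dvd_sub_mod _) (by omega) (by omega)

/-- The last output of level 0 reaches the floor plus an eighth of the rise of level 1. -/
theorem floor0_last {k : ℕ} (hp : p.Ok) (h1 : p.K1 ∣ k + 1) :
    p.floor 0 k + 7 * p.rise 0 / 8 ≤ p.floor 1 (k + 1 - p.K1) + p.rise 1 / 8 := by
  have hK := hp.K1_pos
  obtain ⟨q, hq⟩ := h1
  rcases q with _ | q
  · simp at hq
  have hk : k = p.K1 * q + (p.K1 - 1) := by rw [Nat.mul_succ] at hq; omega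
  have hmod : k % p.K1 = p.K1 - 1 := by
    rw [hk, Nat.mul_add_mod, Nat.mod_eq_of_lt (by omega)]
  have ha : k + 1 - p.K1 = p.K1 * q := by rw [Nat.mul_succ] at hq; omega
  have hf : p.floor 1 k = p.floor 1 (k + 1 - p.K1) := by
    rw [floor_start hp 1, show p.len 1 = p.K1 from rfl, hmod, ha]
    congr 1
    omega
  rw [floor0_eq, hf, hmod, rise1_eq, Nat.cast_sub hK, Nat.cast_one]
  have := Par.rise_pos hp 0
  nlinarith

/-- The last output of level 1 reaches the floor plus an eighth of the rise of level 2. -/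
theorem floor1_last {k : ℕ} (hp : p.Ok) (h2 : p.len 2 ∣ k + 1) :
    p.floor 1 (k + 1 - p.K1) + 7 * p.rise 1 / 8
      ≤ p.floor 2 (k + 1 - p.len 2) + p.rise 2 / 8 := by
  have hK1 := hp.K1_pos
  have hK2 := hp.K2_pos
  obtain ⟨q, hq⟩ := h2
  rcases q with _ | q
  · simp at hq
  set a := k + 1 - p.K1 with ha
  have hL : p.len 2 = p.K1 * p.K2 := rfl
  have hle : p.K1 ≤ p.len 2 := hL ▸ Nat.le_mul_of_pos_right _ hK2
  have e : a = p.len 2 * q + p.K1 * (p.K2 - 1) := by
    rw [Nat.mul_succ] at hq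
    rw [Nat.mul_sub_one, ← hL]
    omega
  have hlt : p.K1 * (p.K2 - 1) < p.len 2 := by
    rw [hL]; exact Nat.mul_lt_mul_of_pos_left (by omega) hK1
  have hmod : a % p.len 2 = p.K1 * (p.K2 - 1) := by
    rw [e, Nat.mul_add_mod, Nat.mod_eq_of_lt hlt]
  have hf : p.floor 2 a = p.floor 2 (k + 1 - p.len 2) := by
    rw [floor_start hp 2, hmod]
    congr 1
    rw [Nat.mul_succ] at hq
    omega
  rw [floor1_eq, hmod, hf, Nat.mul_div_cancel_left _ hK1, rise2_eq, Nat.cast_sub hK2, Nat.cast_one]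
  have := Par.rise_pos hp 1
  nlinarith

theorem floor2_Nph (hp : p.Ok) : p.floor 2 p.Nph = 2 * p.t0 := by
  have hK1 : (0 : ℝ) < p.K1 := Nat.cast_pos.2 hp.K1_pos
  have hK2 : (0 : ℝ) < p.K2 := Nat.cast_pos.2 hp.K2_pos
  have hN2 : (0 : ℝ) < p.N2 := Nat.cast_pos.2 hp.N2_pos
  rw [floor2, show p.Nph = p.N2 * p.len 2 from rfl, Nat.mul_div_cancel _ (len_pos hp 2)]
  simp only [Par.rise, Par.Nph, Fin.isValue, Matrix.cons_val]
  push_cast
  field_simp
  ring

variable {ι : Type*} [Fintype ι] [DecidableEq ι] {N : Net ι p.D} {ω : Seeds ι p} {σ : Coins ι p}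
  {o : ι} {s : Bool}

omit [Fintype ι] in
theorem valid_empty {r : ℕ} {x : ι → ι → ℂ} (hx : IsHerm x) (h : ι → Fin r → ℝ) (Z : ι → ℝ) :
    Valid ∅ h Z x :=
  valid_iff.2 ⟨hx, fun t _ => by rw [q_empty]; exact one_ne_zero⟩

theorem perOut_inter (i : Fin 3) (a : ℕ) (S D : Finset ι) (st : St ι p.r) :
    perOut p N ω σ i s a S (D ∩ S) st = perOut p N ω σ i s a S D st := by
  simp only [perOut]
  rw [show S \ (D ∩ S) = S \ D by ext l; simp]

theorem perOut_subset (i : Fin 3) (a : ℕ) (S D : Finset ι) (st : St ι p.r) :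
    perOut p N ω σ i s a S D st ⊆ S := sdiff_subset

theorem sets_zero (i : Fin 3) : sets p N ω σ o s 0 i = N.ball o p.Lg := rfl

variable (N ω σ o s)

/-- The output of level 0 in phase `k`. -/
def out0 (k : ℕ) : Finset ι :=
  perOut p N ω σ 0 s k (sets p N ω σ o s k 0) ∅ (stateAt p N ω σ k)

/-- The output of level 1 in the period that starts at phase `a`. -/
def out1 (a : ℕ) : Finset ι :=
  perOut p N ω σ 1 s a (sets p N ω σ o s a 1) (out0 N ω σ o s (a + p.K1 - 1)) (stateAt p N ω σ a)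

/-- The output of level 2 in the period that starts at phase `a`. -/
def out2 (a : ℕ) : Finset ι :=
  perOut p N ω σ 2 s a (sets p N ω σ o s a 2) (out1 N ω σ o s (a + p.len 2 - p.K1))
    (stateAt p N ω σ a)

variable {N ω σ o s}

theorem sets_succ_two (k : ℕ) (h : ¬ p.len 2 ∣ k + 1) :
    sets p N ω σ o s (k + 1) 2 = sets p N ω σ o s k 2 := by
  simp only [sets, if_neg h, Fin.isValue, Matrix.cons_val]

theorem sets_succ_one (k : ℕ) (h : ¬ p.K1 ∣ k + 1) :
    sets p N ω σ o s (k + 1) 1 = sets p N ω σ o s k 1 := by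
  have h' : ¬ p.len 2 ∣ k + 1 := fun h2 => h (dvd_len2_K1.trans h2)
  simp only [sets, if_neg h, if_neg h', Fin.isValue, Matrix.cons_val]

/-- Sets of a level only change when one of its periods ends. -/
theorem sets_start (i : Fin 3) (k : ℕ) :
    sets p N ω σ o s k i = sets p N ω σ o s (k - k % p.len i) i := by
  induction k with
  | zero => simp
  | succ k ih =>
    by_cases h : p.len i ∣ k + 1
    · rw [Nat.mod_eq_zero_of_dvd h, Nat.sub_zero]
    have hstep : sets p N ω σ o s (k + 1) i = sets p N ω σ o s k i := by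
      fin_cases i
      · exact absurd (one_dvd _) h
      · exact sets_succ_one k h
      · exact sets_succ_two k h
    rw [hstep, ih]
    congr 1
    have h1 : k % p.len i + 1 ≠ p.len i := fun h' => h (dvd_succ_iff.2 (Or.inl h'))
    have h2 : (k + 1) % p.len i = k % p.len i + 1 := by
      rcases Nat.eq_zero_or_pos (p.len i) with h0 | hpos
      · simp [h0]
      have := Nat.mod_lt k hpos
      rw [Nat.add_mod, Nat.mod_eq_of_lt (show 1 < p.len i by
        rcases eq_or_ne (p.len i) 1 with e | e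
        · exact absurd (by rw [e]; exact one_dvd _) h
        · omega), Nat.mod_eq_of_lt (by omega)]
    omega

theorem sets_succ_zero (k : ℕ) (h : ¬ p.K1 ∣ k + 1) :
    sets p N ω σ o s (k + 1) 0 = out0 N ω σ o s k := by
  simp only [sets, out0, if_neg h, Fin.isValue, Matrix.cons_val]

theorem sub_len_mod {L k : ℕ} (h : L ∣ k + 1) (hL : 0 < L) : k - k % L = k + 1 - L := by
  rcases dvd_succ_iff.1 h with h' | rfl
  · omega
  · simp [Nat.mod_one]

theorem sets_succ_mid (hp : p.Ok) (k : ℕ) (h1 : p.K1 ∣ k + 1) (h2 : ¬ p.len 2 ∣ k + 1) :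
    sets p N ω σ o s (k + 1) 1 = out1 N ω σ o s (k + 1 - p.K1) ∧
      sets p N ω σ o s (k + 1) 0 = out1 N ω σ o s (k + 1 - p.K1) := by
  have hK := hp.K1_pos
  have hle : p.K1 ≤ k + 1 := Nat.le_of_dvd (by omega) h1
  have hs : sets p N ω σ o s k 1 = sets p N ω σ o s (k + 1 - p.K1) 1 := by
    rw [sets_start 1 k]
    congr 1
    exact sub_len_mod h1 hK
  have e : k + 1 - p.K1 + p.K1 - 1 = k := by omega
  constructor <;>
    simp only [sets, out1, out0, if_pos h1, if_neg h2, Fin.isValue, Matrix.cons_val, e, ← hs]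

theorem sets_succ_top (hp : p.Ok) (k : ℕ) (h2 : p.len 2 ∣ k + 1) (i : Fin 3) :
    sets p N ω σ o s (k + 1) i = out2 N ω σ o s (k + 1 - p.len 2) := by
  have hK := hp.K1_pos
  have h1 : p.K1 ∣ k + 1 := dvd_len2_K1.trans h2
  have hle : p.K1 ≤ k + 1 := Nat.le_of_dvd (by omega) h1
  have hle2 : p.len 2 ≤ k + 1 := Nat.le_of_dvd (by omega) h2
  have hs2 : sets p N ω σ o s k 2 = sets p N ω σ o s (k + 1 - p.len 2) 2 := by
    rw [sets_start 2 k]
    congr 1
    exact sub_len_mod h2 (len_pos hp 2)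
  have hs1 : sets p N ω σ o s k 1 = sets p N ω σ o s (k + 1 - p.K1) 1 := by
    rw [sets_start 1 k]
    congr 1
    exact sub_len_mod h1 hK
  have e1 : k + 1 - p.len 2 + p.len 2 - p.K1 = k + 1 - p.K1 := by omega
  have e0 : k + 1 - p.K1 + p.K1 - 1 = k := by omega
  fin_cases i <;>
    simp only [sets, out2, out1, out0, if_pos h1, if_pos h2, Fin.isValue, Fin.zero_eta,
      Fin.reduceFinMk, Matrix.cons_val, e1, e0, ← hs2, ← hs1]

/-- The output of a period, its lower input not assumed inside. -/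
theorem perOut_valid (hp : p.Ok) {i : Fin 3} {a : ℕ} {S D : Finset ι} (hd : p.len i ∣ a)
    (hf : a + p.len i ≤ p.Nph) (hv : Valid S (stateAt p N ω σ a).h (fun _ => p.floor i a) (N.xs s))
    (hD : Valid D (stateAt p N ω σ (a + p.len i)).h (fun _ => p.floor i a + p.rise i / 8) (N.xs s)) :
    Valid (perOut p N ω σ i s a S D (stateAt p N ω σ a)) (stateAt p N ω σ (a + p.len i)).h
      (fun _ => p.floor i a + 7 * p.rise i / 8) (N.xs s) := by
  have hlaw := stateAt_isLaw (N := N) ω σ hp (a + p.len i)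
  rw [← perOut_inter]
  exact outStmt p hp N ω σ i s a S (D ∩ S) ⟨hd, hf, hv⟩ inter_subset_right
    (hD.subset (hlaw.mono (subset_univ _)) inter_subset_left)

/-- **`StmtChain`.** Every set is valid at the floor of its period. -/
theorem chainStmt : Iface.StmtChain (ι := ι) p := by
  intro hp N ω σ o s k i hstart hk hdvd
  induction k using Nat.strong_induction_on generalizing i with
  | _ k ih =>
    rcases k with _ | k
    · have := Par.t0_le_floor hp i 0
      refine ((valid_congr (fun _ _ => ?_) fun _ _ => rfl).1 (hstart s)).mono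
        ((stateAt_isLaw (N := N) ω σ hp 0).mono (subset_univ _)) fun u _ => ?_
      · simp [stateAt, seg_self, runOn]
      · linarith [hp.t0_pos]
    have hlaw : ∀ j (T : Finset ι), IsLaw T (stateAt p N ω σ j).h := fun j T =>
      (stateAt_isLaw (N := N) ω σ hp j).mono (subset_univ _)
    have v0 : Valid (out0 N ω σ o s k) (stateAt p N ω σ (k + 1)).h
        (fun _ => p.floor 0 k + 7 * p.rise 0 / 8) (N.xs s) :=
      perOut_valid hp (i := 0) (one_dvd _) hk (ih k (by omega) 0 (by omega) (one_dvd _))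
        (valid_empty (N.xs_herm s) _ _)
    by_cases h1 : p.K1 ∣ k + 1
    swap
    · fin_cases i
      · rw [show ((⟨0, by omega⟩ : Fin 3)) = 0 from rfl, sets_succ_zero k h1]
        exact v0.mono (hlaw _ _) fun u _ => by
          linarith [show p.floor 0 k + p.rise 0 ≤ p.floor 0 (k + 1) from
            floor_step hp (i := 0) (one_dvd k), Par.rise_pos hp 0]
      · exact absurd hdvd h1
      · exact absurd (dvd_len2_K1.trans hdvd) h1
    have hK1 := hp.K1_pos
    have hle : p.K1 ≤ k + 1 := Nat.le_of_dvd (by omega) h1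
    have hda : p.K1 ∣ k + 1 - p.K1 := Nat.dvd_sub h1 dvd_rfl
    have e1 : k + 1 - p.K1 + p.len 1 = k + 1 := by
      show k + 1 - p.K1 + p.K1 = k + 1
      omega
    have e0 : k + 1 - p.K1 + p.K1 - 1 = k := by omega
    have v1 : Valid (out1 N ω σ o s (k + 1 - p.K1)) (stateAt p N ω σ (k + 1)).h
        (fun _ => p.floor 1 (k + 1 - p.K1) + 7 * p.rise 1 / 8) (N.xs s) := by
      rw [out1, e0]
      conv => arg 2; rw [← e1]
      refine perOut_valid hp hda (by omega) (ih _ (by omega) 1 (by omega) hda) ?_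
      rw [e1]
      exact v0.mono (hlaw _ _) fun u _ => floor0_last hp h1
    by_cases h2 : p.len 2 ∣ k + 1
    swap
    · have hs := sets_succ_mid (N := N) (ω := ω) (σ := σ) (o := o) (s := s) hp k h1 h2
      have hf := e1 ▸ floor_step hp (i := 1) hda
      have hr := Par.rise_pos hp 1
      fin_cases i
      · rw [show ((⟨0, by omega⟩ : Fin 3)) = 0 from rfl, hs.2, floor0_of_dvd h1]
        exact v1.mono (hlaw _ _) fun u _ => by linarith
      · rw [show ((⟨1, by omega⟩ : Fin 3)) = 1 from rfl, hs.1]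
        exact v1.mono (hlaw _ _) fun u _ => by linarith
      · exact absurd hdvd h2
    have hle2 : p.len 2 ≤ k + 1 := Nat.le_of_dvd (by omega) h2
    have hda2 : p.len 2 ∣ k + 1 - p.len 2 := Nat.dvd_sub h2 dvd_rfl
    have hpos2 := len_pos hp 2
    have e2 : k + 1 - p.len 2 + p.len 2 = k + 1 := by omega
    have v2 : Valid (out2 N ω σ o s (k + 1 - p.len 2)) (stateAt p N ω σ (k + 1)).h
        (fun _ => p.floor 2 (k + 1 - p.len 2) + 7 * p.rise 2 / 8) (N.xs s) := by
      rw [out2, show k + 1 - p.len 2 + p.len 2 - p.K1 = k + 1 - p.K1 by omega]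
      conv => arg 2; rw [← e2]
      refine perOut_valid hp hda2 (by omega) (ih _ (by omega) 2 (by omega) hda2) ?_
      rw [e2]
      exact v1.mono (hlaw _ _) fun u _ => floor1_last hp h2
    rw [sets_succ_top hp k h2 i]
    refine v2.mono (hlaw _ _) fun u _ => ?_
    have hf := e2 ▸ floor_step hp (i := 2) hda2
    have hr := Par.rise_pos hp 2
    fin_cases i
    · rw [show ((⟨0, by omega⟩ : Fin 3)) = 0 from rfl, floor0_of_dvd h1, floor1_of_dvd h2]
      linarith
    · rw [show ((⟨1, by omega⟩ : Fin 3)) = 1 from rfl, floor1_of_dvd h2]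
      linarith
    · rw [show ((⟨2, by omega⟩ : Fin 3)) = 2 from rfl]
      linarith

end Vale.Agent.P078.Local.Chain
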